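import Mathlib

/-! # P122 / C : the real variable part [RV] of the multiscale argument (helper958)

`i / K`, `0 ≤ i ≤ K`, are the levels.  `V` is the box functional, `E = Δ - 2 Θ`, `M` the branching, `m` the excess,
`α` the thickness exponent of the optimal boxes, `g` the accumulated normal branching of the thin levels. -/

namespace Vale.Agent.P122.C

/-- a profile on the mesh `0, 1/K, …, 1`, all errors `C / K` -/
structure Prof (C κ c1 : ℝ) (K : ℕ) (V E M m α g : ℕ → ℝ) : Prop where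
  E0 : E 0 = 0
  Emono : ∀ i j, i ≤ j → j ≤ K → E i ≤ E j
  Mmono : ∀ i j, i ≤ j → j ≤ K → M i ≤ M j
  MLip : ∀ i j, i ≤ j → j ≤ K → M j - M i ≤ 2 * ((j:ℝ) - i) / K
  gmono : ∀ i j, i ≤ j → j ≤ K → g i ≤ g j
  gLip : ∀ i j, i ≤ j → j ≤ K → g j - g i ≤ 2 * ((j:ℝ) - i) / K
  m0 : ∀ i, i ≤ K → 0 ≤ m i
  mLip : ∀ i j, i ≤ K → j ≤ K → |m i - m j| ≤ C * |(i:ℝ) - j| / K + C / K
  αge : ∀ i, i ≤ K → (i:ℝ) / K ≤ α i
  /-- initial piece -/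
  init : ∀ i, i ≤ K → V i ≤ V 0 + 3 * E i + C * i / K + C / K
  /-- trivial step -/
  triv : ∀ i j, i ≤ j → j ≤ 2 * i → j ≤ K → V j ≤ V i + 3 * (E j - E i) + C * ((j:ℝ) - i) / K + C / K
  /-- step with a fat box of a neighbouring level `c` -/
  A : ∀ c i j, i ≤ j → j ≤ 2 * i → j ≤ K → j ≤ 2 * c → c ≤ K → (j:ℝ) / K ≤ α c →
    V j ≤ V i + 3 * (E j - E i) + C * |(c:ℝ) - i| / K + C / K
  /-- step with the tubes themselves as boxes -/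
  S : ∀ i j, i ≤ j → j ≤ 2 * i → j ≤ K →
    V j ≤ V i + m i + 3 * (E j - E i) + ((M j - M i) - (M i - M (2 * i - j))) + C / K
  /-- step with a thin plank; all neighbouring levels have thin planks -/
  P : ∀ i j u, i ≤ j → j ≤ 2 * i → j ≤ K → i + u ≤ j → ((j:ℝ) - i) / K ≤ κ * c1 →
    (∀ c, 2 * i - j ≤ c → c ≤ j → c1 ≤ m c ∧ α c - (c:ℝ) / K ≤ κ * m c) →
    |α i - ((i:ℝ) + u) / K| ≤ 1 / K →
    V j ≤ V i + 3 * (E j - E i) + ((g j - g (i + u)) - (g (i - u) - g (2 * i - j))) + C / K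

/-- [RV] -/
def StRV : Prop := ∀ (C κ e0 : ℝ), 1 ≤ C → 0 < κ → κ ≤ 1 → 0 < e0 → ∃ (c1 : ℝ) (K0 : ℕ), 0 < c1 ∧ 1 ≤ K0 ∧
  ∀ (K : ℕ), K0 ≤ K → ∀ V E M m α g : ℕ → ℝ, Prof C κ c1 K V E M m α g → V K ≤ V 0 + 3 * E K + e0

end Vale.Agent.P122.C
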