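import Mathlib

/-! # P122 / C : the discrete multiscale object (helper958)

`K` levels, `n` binary digits per level, `R = 2^(2 K n)`.  A tube of level `i` has radius `2^(i n)`, length
`2^(2 i n)`, slope `τ / 2^(i n)` with `τ ∈ [0, 2^(i n))²`, time block `T` (times `[T, T+1) 2^(2 i n)`), and its axis is at the
position `2^(i n) o` at the time `T 2^(2 i n)`.  `S.sg n` is the piece of radius `2^((i+1) n)` and length `2^(2 i n)` around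
`S`; `σ.ch n τ'` is the tube of level `i + 1` and cap `τ'` through the piece `σ`. -/

namespace Vale.Agent.P122.C

abbrev Z2 := Fin 2 → ℤ

/-- node: cap, offset, time block -/
@[ext] structure Nd where
  τ : Z2
  o : Z2
  T : ℤ
deriving DecidableEq

/-- the piece `σ` (radius of the next level) around the tube -/
noncomputable def Nd.sg (n : ℕ) (S : Nd) : Nd := ⟨S.τ, fun k => S.o k / 2 ^ n, S.T⟩

/-- the tube of the next level with cap `τ'` through the piece `σ` -/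
noncomputable def Nd.ch (n : ℕ) (σ : Nd) (τ' : Z2) : Nd :=
  ⟨τ', fun k => σ.o k - (σ.T % 2 ^ (2 * n)) * τ' k / 2 ^ (2 * n), σ.T / 2 ^ (2 * n)⟩

/-- the children of the cap `τ` -/
noncomputable def kids (n : ℕ) (τ : Z2) : Finset Z2 := Fintype.piFinset fun k => Finset.Ico (2 ^ n * τ k) (2 ^ n * (τ k + 1))

/-- first coordinate in the frame `θ` (wide direction) -/
noncomputable def fw (θ : ℝ) (v : Fin 2 → ℝ) : ℝ := Real.cos θ * v 0 + Real.sin θ * v 1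

/-- second coordinate in the frame `θ` (normal direction) -/
noncomputable def fn (θ : ℝ) (v : Fin 2 → ℝ) : ℝ := -Real.sin θ * v 0 + Real.cos θ * v 1

/-- multiscale amplitudes. `A i S G` = amplitude on the tube `S` (level `i`) of the sum of the pieces of the caps in `G`
(children of `S.τ`), `a i S` = amplitude of the piece of the cap `S.τ`. -/
structure Amp (C : ℝ) (n K : ℕ) where
  A : ℕ → Nd → Finset Z2 → ℝ
  a : ℕ → Nd → ℝ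
  a0 : ∀ i S, 0 ≤ a i S
  A0 : ∀ i S G, 0 ≤ A i S G
  kid : ∀ i S, i < K → a i S ≤ A i S (kids n S.τ)
  tri : ∀ i S G G', i < K → Disjoint G G' → A i S (G ∪ G') ≤ A i S G + A i S G'
  /-- [L] -/
  L1 : ∀ i S G, i < K → G ⊆ kids n S.τ → A i S G ≤ C * ∑ τ' ∈ G, a (i + 1) ((S.sg n).ch n τ')
  /-- [B1] local `L²` on discs -/
  B1 : ∀ i σ G, i < K → G ⊆ kids n σ.τ → ∀ U : Finset Nd, (∀ S ∈ U, S.sg n = σ) →
    ∑ S ∈ U, A i S G ^ 2 ≤ C * 2 ^ (2 * n) * ∑ τ' ∈ G, a (i + 1) (σ.ch n τ') ^ 2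
  /-- [B2] local `L²` along the direction `θ` on strips -/
  B2 : ∀ i τ θ, 1 ≤ i → i < K → ∃ ψ : Fin 2 → ℝ, C⁻¹ ≤ fw θ ψ ∧ |ψ 0| ≤ C ∧ |ψ 1| ≤ C ∧
    ∀ (σ : Nd) (G : Finset Z2) (k : ℕ), σ.τ = τ → G ⊆ kids n τ →
      (∀ s : ℝ, (G.filter fun τ' => |ψ 0 * τ' 0 + ψ 1 * τ' 1 - s| ≤ 1).card ≤ k) →
      ∀ (U : Finset Nd) (r : ℝ), (∀ S ∈ U, S.sg n = σ ∧ |fn θ (fun j => (S.o j : ℝ)) - r| ≤ 1) →
        ∑ S ∈ U, A i S G ^ 2 ≤ C * 2 ^ n * k * ∑ τ' ∈ G, a (i + 1) (σ.ch n τ') ^ 2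
  /-- support -/
  supp : ∀ S, a K S ≠ 0 → S.T = 0 ∧ ∀ k, 0 ≤ S.τ k ∧ S.τ k < 2 ^ (K * n) ∧ |(S.o k : ℝ)| ≤ C * 2 ^ (K * n)

/-- Katz-Tao condition at the top level: planks of normalised widths `u1 ≤ u2` -/
def KTop {C : ℝ} {n K : ℕ} (F : Amp C n K) (Λ : ℝ) : Prop :=
  ∀ (θ u1 u2 : ℝ) (p v : Fin 2 → ℝ) (U : Finset Nd), (1 / 2 : ℝ) ^ (K * n) ≤ u1 → u1 ≤ u2 → u2 ≤ 1 →
    (∀ S ∈ U, |fw θ (fun j => (S.o j : ℝ) / 2 ^ (K * n) - p j)| ≤ u2 ∧ |fn θ (fun j => (S.o j : ℝ) / 2 ^ (K * n) - p j)| ≤ u1 ∧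
      |fw θ (fun j => (S.τ j : ℝ) / 2 ^ (K * n) - v j)| ≤ u2 ∧ |fn θ (fun j => (S.τ j : ℝ) / 2 ^ (K * n) - v j)| ≤ u1) →
    ∑ S ∈ U, F.a K S ^ 2 ≤ Λ * (u1 * u2 * 2 ^ (2 * K * n))

/-- [CORE] the multiscale theorem. The constant `C` may depend on `K`. -/
def StCORE : Prop := ∀ δ : ℝ, 0 < δ → ∃ K : ℕ, 1 ≤ K ∧ ∀ C : ℝ, 1 ≤ C → ∃ C' : ℝ, 0 ≤ C' ∧ ∀ (n : ℕ) (F : Amp C n K) (Λ Q : ℝ),
  KTop F Λ → (∀ U : Finset Nd, ∑ S ∈ U, F.a K S ^ 2 ≤ Q) →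
  ∀ X : Finset Nd, (∀ x ∈ X, x.τ = 0 ∧ 0 ≤ x.T ∧ x.T < 2 ^ (2 * K * n)) →
    ∑ x ∈ X, F.a 0 x ^ 3 ≤ C' * 2 ^ (δ * (K * n)) * Real.sqrt Λ * 2 ^ (4 * K * n) * Q

end Vale.Agent.P122.C
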