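import Vale.Agent.P122.C.Flag2
import Vale.Agent.P122.H610.Flags

/-! # P122 / C : `H610.Fg` = `Val.fl`, and the counts of `C/Flag`, `C/Flag2` for `Fg` (helper20) -/

set_option autoImplicit false

namespace Vale.Agent.P122.C2

open Finset

section

variable {s : ℕ → Z2 → Fin 2 → ℝ} {n : ℕ}

theorem pth_eq (i : ℕ) (x : Nd) (y : Z2) : H610.pth s n i x y = pt s n i x y := by
  induction i generalizing y with
  | zero => rfl
  | succ i ih =>
    show nx s n i (H610.pth s n i x (par n y)) y = nx s n i (pt s n i x (par n y)) y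
    rw [ih]

theorem an_eq (k : ℕ) (y : Z2) : H610.an n k y = anc n k y := by
  funext j
  rw [H610.an_apply]
  rfl

theorem nd_eq (K c : ℕ) (f : Nd × Z2) : H610.nd s n K c f = nd s n K c f := by
  unfold H610.nd nd
  rw [pth_eq, an_eq]

theorem Fg_eq {V : Val} (hr : ∀ x ∈ V.X, x.τ = 0) (i : ℕ) : H610.Fg V s n i = V.fl s n i := by
  induction i with
  | zero =>
    show V.X.image (fun x => (x, (0 : Z2))) = V.X.image fun x => (x, x.τ)
    refine image_congr fun x hx => ?_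
    show (x, (0 : Z2)) = (x, x.τ)
    rw [hr x hx]
  | succ i ih =>
    show (H610.Fg V s n i).biUnion _ = (V.fl s n i).biUnion _
    rw [ih]
    simp only [pth_eq]

end

section

variable {C : ℝ} {n K : ℕ} {F : Amp C n K} {V V' : Val} {ρ ρ' : ℝ} {a : ℕ → ℝ} {J J' : ℕ → ℕ}

open H610 in
/-- number of flags of level `K` through a set of nodes of level `c` -/
theorem Val.Ok.card_thr_Fg (h : V.Ok F ρ a J) {c m : ℕ} (hc : c + m = K) (p : Nd → Prop) [DecidablePred p] :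
    2 ^ (∑ i ∈ range m, J (c + i)) * ((Fg V F.s n c).filter fun f => p (pth F.s n c f.1 f.2)).card ≤
      ((Fg V F.s n K).filter fun f => p (H610.nd F.s n K c f)).card ∧
    ((Fg V F.s n K).filter fun f => p (H610.nd F.s n K c f)).card ≤
      2 ^ (∑ i ∈ range m, J (c + i) + m) * ((Fg V F.s n c).filter fun f => p (pth F.s n c f.1 f.2)).card := by
  subst hc
  simp only [Fg_eq h.root, pth_eq, nd_eq]
  exact h.card_thr le_rfl p

open H610 in
/-- number of flags of level `K` above a set of flags of level `c` -/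
theorem Val.Ok.card_fib_Fg (h : V.Ok F ρ a J) {c m : ℕ} (hc : c + m = K) (A : Finset (Nd × Z2)) (hA : A ⊆ Fg V F.s n c) :
    2 ^ (∑ i ∈ range m, J (c + i)) * A.card ≤ ((Fg V F.s n K).filter fun f => (f.1, an n m f.2) ∈ A).card ∧
    ((Fg V F.s n K).filter fun f => (f.1, an n m f.2) ∈ A).card ≤ 2 ^ (∑ i ∈ range m, J (c + i) + m) * A.card := by
  subst hc
  simp only [Fg_eq h.root, an_eq] at hA ⊢
  exact h.card_fib le_rfl A hA

open H610 in
theorem Val.Ok.card_Fg_bd (h : V.Ok F ρ a J) (hC : 0 ≤ C) :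
    ((Fg V F.s n K).card : ℝ) ≤ (2 * (C + 3 * K) + 1) ^ 2 * 2 ^ (8 * K * n) := by
  rw [Fg_eq h.root]
  exact h.card_fl_bd hC

open H610 in
/-- **density** -/
theorem Val.Ok.card_Fg_le (h : V.Ok F ρ a J) (h' : V'.Ok F ρ' a J') {ℓ : ℝ} {m : ℕ}
    (hX : (V.X.card : ℝ) ≤ ℓ * V'.X.card) (hJ : ∑ c ∈ range K, J c ≤ ∑ c ∈ range K, J' c + m) :
    ((Fg V F.s n K).card : ℝ) ≤ 2 ^ (K + m) * ℓ * (Fg V' F.s n K).card := by
  rw [Fg_eq h.root, Fg_eq h'.root]
  exact h.card_fl_le h' hX hJ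

open H610 in
/-- **uniform nodes** -/
theorem Val.Ok.unf_Fg (h : V.Ok F ρ a J) (hρ : 0 < ρ) (w : Nd → ℝ) (hw : ∀ x ∈ V.X, 0 ≤ w x) (m : ℕ)
    (hm : (Fg V F.s n K).card ≤ 2 ^ m) :
    ∃ (V' : Val) (J' : ℕ → ℕ) (H : ℕ → ℕ), V'.Le V ∧ V'.Ok F (ρ / (los (m + 1) n K : ℕ) ^ (K + 1)) a J' ∧
      (∀ c, c ≤ K → ∀ v ∈ V'.D F.s n c,
        2 ^ H c * ((Fg V F.s n K).filter fun f => H610.nd F.s n K c f = v).card ≤ (Fg V F.s n K).card ∧
        (Fg V F.s n K).card < 2 ^ (H c + 1) * ((Fg V F.s n K).filter fun f => H610.nd F.s n K c f = v).card) ∧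
      (∀ c, c ≤ K → (V'.D F.s n c).card ≤ 2 ^ (H c + 1)) ∧
      ∑ x ∈ V.X, w x ≤ (los (m + 1) n K : ℕ) ^ (K + 1) * ∑ x ∈ V'.X, w x := by
  simp only [Fg_eq h.root, nd_eq] at hm ⊢
  exact h.unf hρ w hw m hm

end

end Vale.Agent.P122.C2
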