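import Vale.Agent.P122.C.Val2

/-! # P122 / C : the flags of a valid structure (helper20)

A flag of level `j` is a pair `(x, τ)`: starting node and cap of level `j`; the node of level `c ≤ j` of the flag is
`pt s n c x (anc n (j - c) τ)`.

* `V.fl s n j` : flags of level `j`; `mem_fl_succ`, `Le.fl`, `pt_mem_D`, `exists_fl`, `exists_up`.
* counts: `Ok.card_fl_succ`, `Ok.card_fl`, `Ok.card_fib` (flags above a set of flags of lower level).
* `Ok.unf` : refinement after which every node of level `c` carries `≈ 2 ^ (- H c)` of the flags of `V`.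
-/

set_option autoImplicit false

namespace Vale.Agent.P122.C2

open Finset

/-- the ancestor of a cap, `m` levels up -/
def anc (n m : ℕ) (τ : Z2) : Z2 := fun k => τ k / 2 ^ (m * n)

theorem anc_zero (n : ℕ) (τ : Z2) : anc n 0 τ = τ := by
  funext k
  simp [anc]

theorem anc_anc (n a b : ℕ) (τ : Z2) : anc n a (anc n b τ) = anc n (b + a) τ := by
  funext k
  simp only [anc]
  rw [Int.ediv_ediv_of_nonneg (by positivity : (0 : ℤ) ≤ 2 ^ (b * n)), ← pow_add]
  congr 2
  ring

theorem anc_one (n : ℕ) (τ : Z2) : anc n 1 τ = par n τ := by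
  funext k
  simp [anc, par]

theorem anc_succ (n m : ℕ) (τ : Z2) : anc n (m + 1) τ = anc n m (par n τ) := by
  rw [← anc_one, anc_anc]
  congr 1
  ring

theorem anc_succ' (n m : ℕ) (τ : Z2) : anc n (m + 1) τ = par n (anc n m τ) := by
  rw [← anc_one, anc_anc]

theorem mem_kids {n : ℕ} {τ τ' : Z2} : τ' ∈ kids n τ ↔ par n τ' = τ := by
  unfold kids par
  rw [Fintype.mem_piFinset]
  have hn : (0 : ℤ) < 2 ^ n := by positivity
  constructor
  · intro h
    funext k
    have h1 := Finset.mem_Ico.1 (h k)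
    refine Int.le_antisymm ?_ ?_
    · have : τ' k / 2 ^ n < τ k + 1 := Int.ediv_lt_of_lt_mul hn (by linarith [h1.2])
      omega
    · exact (Int.le_ediv_iff_mul_le hn).2 (by linarith [h1.1])
  · intro h k
    rw [← h]
    simp only [Finset.mem_Ico]
    have h1 := Int.emod_add_mul_ediv (τ' k) (2 ^ n)
    have h2 := Int.emod_nonneg (τ' k) hn.ne'
    have h3 := Int.emod_lt_of_pos (τ' k) hn
    constructor
    · linarith
    · linarith

/-- the node of level `j` of the flag `(x, τ)`, `τ` a cap of level `j` -/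
noncomputable def pt (s : ℕ → Z2 → Fin 2 → ℝ) (n : ℕ) : ℕ → Nd → Z2 → Nd
  | 0, x, _ => x
  | j + 1, x, τ => nx s n j (pt s n j x (par n τ)) τ

/-- the node of level `c` of a flag of level `K` -/
noncomputable def nd (s : ℕ → Z2 → Fin 2 → ℝ) (n K c : ℕ) (p : Nd × Z2) : Nd := pt s n c p.1 (anc n (K - c) p.2)

/-- truncation of a flag -/
def up (n m : ℕ) (f : Nd × Z2) : Nd × Z2 := (f.1, anc n m f.2)

section

variable {s : ℕ → Z2 → Fin 2 → ℝ}

theorem nd_zero {n K : ℕ} (p : Nd × Z2) : nd s n K 0 p = p.1 := rfl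

theorem nd_self {n K : ℕ} (p : Nd × Z2) : nd s n K K p = pt s n K p.1 p.2 := by
  unfold nd
  rw [Nat.sub_self, anc_zero]

theorem nd_succ {n K c : ℕ} (hc : c < K) (p : Nd × Z2) :
    nd s n K (c + 1) p = nx s n c (nd s n K c p) (anc n (K - (c + 1)) p.2) := by
  unfold nd
  have e : K - c = (K - (c + 1)) + 1 := by omega
  rw [e, anc_succ']
  rfl

theorem nd_up {n j m c : ℕ} (hc : c ≤ j) (f : Nd × Z2) : nd s n j c (up n m f) = nd s n (j + m) c f := by
  unfold nd up
  simp only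
  rw [anc_anc]
  congr 2
  omega

theorem up_zero {n : ℕ} (f : Nd × Z2) : up n 0 f = f := by
  unfold up
  rw [anc_zero]

theorem up_up {n a b : ℕ} (f : Nd × Z2) : up n a (up n b f) = up n (b + a) f := by
  unfold up
  rw [anc_anc]

theorem pt_τ {n : ℕ} {j : ℕ} {x : Nd} {τ : Z2} (h : j = 0 → x.τ = τ) : (pt s n j x τ).τ = τ := by
  cases j with
  | zero => exact h rfl
  | succ j => rfl

namespace Val

/-- flags of level `j` -/
noncomputable def fl (s : ℕ → Z2 → Fin 2 → ℝ) (n : ℕ) (V : Val) : ℕ → Finset (Nd × Z2)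
  | 0 => V.X.image fun x => (x, x.τ)
  | j + 1 => (fl s n V j).biUnion fun p => (V.G j ((pt s n j p.1 p.2).sg n)).image fun τ' => (p.1, τ')

theorem mem_fl_zero {n : ℕ} {V : Val} {f : Nd × Z2} : f ∈ V.fl s n 0 ↔ f.1 ∈ V.X ∧ f.2 = f.1.τ := by
  simp only [fl, mem_image]
  constructor
  · rintro ⟨x, hx, rfl⟩
    exact ⟨hx, rfl⟩
  · rintro ⟨h1, h2⟩
    exact ⟨f.1, h1, Prod.ext rfl h2.symm⟩

theorem mem_fl_succ' {n : ℕ} {V : Val} {j : ℕ} {f : Nd × Z2} : f ∈ V.fl s n (j + 1) ↔
    ∃ p ∈ V.fl s n j, ∃ τ' ∈ V.G j ((pt s n j p.1 p.2).sg n), (p.1, τ') = f := by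
  simp only [fl, mem_biUnion, mem_image]

/-- the cap of the last node of a flag -/
theorem fl_τ {n : ℕ} {V : Val} {j : ℕ} {f : Nd × Z2} (h : f ∈ V.fl s n j) : (pt s n j f.1 f.2).τ = f.2 := by
  cases j with
  | zero => exact (mem_fl_zero.1 h).2.symm
  | succ j => rfl

end Val

variable {C : ℝ} {n K : ℕ} {F : Amp C n K} {V V' : Val} {ρ ρ' : ℝ} {a : ℕ → ℝ} {J J' : ℕ → ℕ}

namespace Val

/-- the last node of a flag is reached; the child sets are sets of children -/
theorem pt_mem_D (h : V.Ok F ρ a J) {j : ℕ} (hj : j ≤ K) {f : Nd × Z2} (hf : f ∈ V.fl F.s n j) :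
    pt F.s n j f.1 f.2 ∈ V.D F.s n j := by
  induction j generalizing f with
  | zero => exact (mem_fl_zero.1 hf).1
  | succ j ih =>
    obtain ⟨p, hp, τ', hτ, rfl⟩ := mem_fl_succ'.1 hf
    have h1 := ih (by omega) hp
    have h2 := h.kid j (by omega) _ h1 hτ
    rw [mem_kids, fl_τ hp] at h2
    refine mem_D_succ.2 ⟨_, h1, τ', hτ, ?_⟩
    show _ = nx F.s n j (pt F.s n j p.1 (par n τ')) τ'
    rw [h2]

theorem mem_fl_succ (h : V.Ok F ρ a J) {j : ℕ} (hj : j < K) {f : Nd × Z2} : f ∈ V.fl F.s n (j + 1) ↔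
    (f.1, par n f.2) ∈ V.fl F.s n j ∧ f.2 ∈ V.G j ((pt F.s n j f.1 (par n f.2)).sg n) := by
  rw [mem_fl_succ']
  constructor
  · rintro ⟨p, hp, τ', hτ, rfl⟩
    have h2 := h.kid j hj _ (pt_mem_D h hj.le hp) hτ
    rw [mem_kids, fl_τ hp] at h2
    simp only
    rw [h2]
    exact ⟨hp, hτ⟩
  · rintro ⟨h1, h2⟩
    exact ⟨_, h1, f.2, h2, rfl⟩

/-- truncation of flags -/
theorem up_mem (h : V.Ok F ρ a J) {j m : ℕ} (hj : j + m ≤ K) {f : Nd × Z2} (hf : f ∈ V.fl F.s n (j + m)) :
    up n m f ∈ V.fl F.s n j := by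
  induction m generalizing f with
  | zero => rw [up_zero]; exact hf
  | succ m ih =>
    have h1 := (mem_fl_succ h (show j + m < K by omega)).1 hf
    have h2 := ih (by omega) h1.1
    unfold up at h2 ⊢
    simp only at h2 ⊢
    rw [anc_succ]
    exact h2

/-- the node of level `c` of a flag is reached -/
theorem nd_mem_D (h : V.Ok F ρ a J) {c j : ℕ} (hc : c ≤ j) (hj : j ≤ K) {f : Nd × Z2} (hf : f ∈ V.fl F.s n j) :
    nd F.s n j c f ∈ V.D F.s n c := by
  obtain ⟨m, rfl⟩ := Nat.exists_eq_add_of_le hc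
  have h1 := pt_mem_D h (by omega) (up_mem h hj hf)
  unfold nd
  have e : c + m - c = m := by omega
  rw [e]
  exact h1

/-- the child of a flag is in the child set of the piece of its node -/
theorem anc_mem_G (h : V.Ok F ρ a J) {c j : ℕ} (hc : c < j) (hj : j ≤ K) {f : Nd × Z2} (hf : f ∈ V.fl F.s n j) :
    anc n (j - (c + 1)) f.2 ∈ V.G c ((nd F.s n j c f).sg n) := by
  obtain ⟨m, rfl⟩ := Nat.exists_eq_add_of_le (Nat.succ_le_of_lt hc)
  have h1 := (mem_fl_succ h (show c < K by omega)).1 (up_mem h hj hf)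
  have e1 : c.succ + m - (c + 1) = m := by omega
  have e2 : c.succ + m - c = m + 1 := by omega
  unfold nd
  rw [e1, e2, anc_succ']
  exact h1.2

/-- every reached node is on a flag -/
theorem exists_fl (h : V.Ok F ρ a J) {j : ℕ} (hj : j ≤ K) {S : Nd} (hS : S ∈ V.D F.s n j) :
    ∃ f ∈ V.fl F.s n j, pt F.s n j f.1 f.2 = S := by
  induction j generalizing S with
  | zero => exact ⟨(S, S.τ), mem_fl_zero.2 ⟨hS, rfl⟩, rfl⟩
  | succ j ih =>
    obtain ⟨S0, hS0, τ', hτ, rfl⟩ := mem_D_succ.1 hS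
    obtain ⟨p, hp, rfl⟩ := ih (by omega) hS0
    have h2 := h.kid j (by omega) _ (pt_mem_D h (by omega) hp) hτ
    rw [mem_kids, fl_τ hp] at h2
    refine ⟨(p.1, τ'), mem_fl_succ'.2 ⟨p, hp, τ', hτ, rfl⟩, ?_⟩
    show nx F.s n j (pt F.s n j p.1 (par n τ')) τ' = _
    rw [h2]

theorem Le.fl (h : V'.Le V) (j : ℕ) : V'.fl s n j ⊆ V.fl s n j := by
  induction j with
  | zero =>
    intro f hf
    rw [mem_fl_zero] at hf ⊢
    exact ⟨h.1 hf.1, hf.2⟩
  | succ j ih =>
    intro f hf
    rw [mem_fl_succ'] at hf ⊢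
    obtain ⟨p, hp, τ', hτ, e⟩ := hf
    exact ⟨p, ih hp, τ', h.2 j _ hτ, e⟩

/-- one level: number of flags above a set of flags -/
theorem Ok.card_step (h : V.Ok F ρ a J) {j : ℕ} (hj : j < K) (A : Finset (Nd × Z2)) (hA : A ⊆ V.fl F.s n j) :
    2 ^ J j * A.card ≤ ((V.fl F.s n (j + 1)).filter fun f => up n 1 f ∈ A).card ∧
    ((V.fl F.s n (j + 1)).filter fun f => up n 1 f ∈ A).card ≤ 2 ^ (J j + 1) * A.card := by
  classical
  have e : ((V.fl F.s n (j + 1)).filter fun f => up n 1 f ∈ A) =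
      A.biUnion fun p => (V.G j ((pt F.s n j p.1 p.2).sg n)).image fun τ' => (p.1, τ') := by
    ext f
    simp only [mem_filter, mem_biUnion, mem_image]
    unfold up
    rw [anc_one]
    constructor
    · rintro ⟨h1, h2⟩
      exact ⟨_, h2, f.2, ((mem_fl_succ h hj).1 h1).2, rfl⟩
    · rintro ⟨p, hp, τ', hτ, rfl⟩
      have h2 := h.kid j hj _ (pt_mem_D h hj.le (hA hp)) hτ
      rw [mem_kids, fl_τ (hA hp)] at h2
      simp only
      refine ⟨mem_fl_succ'.2 ⟨p, hA hp, τ', hτ, rfl⟩, ?_⟩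
      rw [h2]
      exact hp
  have hd : (A : Set (Nd × Z2)).PairwiseDisjoint fun p => (V.G j ((pt F.s n j p.1 p.2).sg n)).image fun τ' => (p.1, τ') := by
    intro p hp q hq hpq
    rw [Function.onFun, disjoint_left]
    intro f h1 h2
    rw [mem_image] at h1 h2
    obtain ⟨τ', hτ, rfl⟩ := h1
    obtain ⟨τ'', hτ', e'⟩ := h2
    have k1 := h.kid j hj _ (pt_mem_D h hj.le (hA hp)) hτ
    have k2 := h.kid j hj _ (pt_mem_D h hj.le (hA hq)) hτ'
    rw [mem_kids, fl_τ (hA hp)] at k1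
    rw [mem_kids, fl_τ (hA hq)] at k2
    have e1 := congrArg Prod.fst e'
    have e2 := congrArg Prod.snd e'
    simp only at e1 e2
    refine hpq (Prod.ext e1.symm ?_)
    rw [← k1, ← k2, e2]
  rw [e, card_biUnion hd]
  have hc : ∀ p ∈ A, 2 ^ J j ≤ ((V.G j ((pt F.s n j p.1 p.2).sg n)).image fun τ' => (p.1, τ')).card ∧
      ((V.G j ((pt F.s n j p.1 p.2).sg n)).image fun τ' => (p.1, τ')).card ≤ 2 ^ (J j + 1) := by
    intro p hp
    rw [card_image_of_injective _ (fun a b hab => (Prod.mk.inj hab).2)]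
    have := h.size j hj _ (pt_mem_D h hj.le (hA hp))
    exact ⟨this.1, this.2.le⟩
  constructor
  · have := card_nsmul_le_sum A _ _ fun p hp => (hc p hp).1
    rw [smul_eq_mul] at this
    rw [mul_comm]
    exact this
  · have := sum_le_card_nsmul A _ _ fun p hp => (hc p hp).2
    rw [smul_eq_mul] at this
    rw [mul_comm]
    exact this

/-- number of flags of level `j + m` above a set of flags of level `j` -/
theorem Ok.card_fib (h : V.Ok F ρ a J) {j m : ℕ} (hj : j + m ≤ K) (A : Finset (Nd × Z2)) (hA : A ⊆ V.fl F.s n j) :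
    2 ^ (∑ c ∈ range m, J (j + c)) * A.card ≤ ((V.fl F.s n (j + m)).filter fun f => up n m f ∈ A).card ∧
    ((V.fl F.s n (j + m)).filter fun f => up n m f ∈ A).card ≤ 2 ^ (∑ c ∈ range m, J (j + c) + m) * A.card := by
  classical
  induction m with
  | zero =>
    have e : ((V.fl F.s n (j + 0)).filter fun f => up n 0 f ∈ A) = A := by
      ext f
      simp only [mem_filter, up_zero, Nat.add_zero]
      exact ⟨fun h => h.2, fun h => ⟨hA h, h⟩⟩
    rw [e]
    simp
  | succ m ih =>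
    have ih := ih (by omega)
    set B := (V.fl F.s n (j + m)).filter fun f => up n m f ∈ A with hB
    have h1 := h.card_step (show j + m < K by omega) B (filter_subset _ _)
    have e : ((V.fl F.s n (j + m + 1)).filter fun f => up n 1 f ∈ B) =
        ((V.fl F.s n (j + (m + 1))).filter fun f => up n (m + 1) f ∈ A) := by
      ext f
      simp only [mem_filter, hB, up_up]
      rw [show 1 + m = m + 1 by ring, show j + (m + 1) = j + m + 1 by ring]
      constructor
      · rintro ⟨k1, k2, k3⟩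
        exact ⟨k1, k3⟩
      · rintro ⟨k1, k3⟩
        exact ⟨k1, up_mem h (show j + m + 1 ≤ K by omega) k1, k3⟩
    rw [e] at h1
    rw [sum_range_succ]
    constructor
    · calc 2 ^ (∑ c ∈ range m, J (j + c) + J (j + m)) * A.card
          = 2 ^ J (j + m) * (2 ^ (∑ c ∈ range m, J (j + c)) * A.card) := by rw [pow_add]; ring
        _ ≤ 2 ^ J (j + m) * B.card := Nat.mul_le_mul_left _ ih.1
        _ ≤ _ := h1.1
    · calc _ ≤ 2 ^ (J (j + m) + 1) * B.card := h1.2
        _ ≤ 2 ^ (J (j + m) + 1) * (2 ^ (∑ c ∈ range m, J (j + c) + m) * A.card) := Nat.mul_le_mul_left _ ih.2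
        _ = _ := by
          rw [← mul_assoc, ← pow_add]
          congr 2
          ring

theorem card_fl_zero (V : Val) : (V.fl s n 0).card = V.X.card := by
  simp only [fl]
  exact card_image_of_injective _ fun a b hab => (Prod.mk.inj hab).1

/-- number of flags -/
theorem Ok.card_fl (h : V.Ok F ρ a J) {j : ℕ} (hj : j ≤ K) :
    2 ^ (∑ c ∈ range j, J c) * V.X.card ≤ (V.fl F.s n j).card ∧
    (V.fl F.s n j).card ≤ 2 ^ (∑ c ∈ range j, J c + j) * V.X.card := by
  classical
  have h1 := h.card_fib (j := 0) (m := j) (by omega) (V.fl F.s n 0) Subset.rfl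
  have e : ((V.fl F.s n (0 + j)).filter fun f => up n j f ∈ V.fl F.s n 0) = V.fl F.s n j := by
    rw [Nat.zero_add]
    refine filter_true_of_mem fun f hf => ?_
    refine up_mem h (by omega) ?_
    rw [Nat.zero_add]
    exact hf
  rw [e, card_fl_zero] at h1
  simpa using h1

/-- number of flags through a set of nodes of level `j` -/
theorem Ok.card_thr (h : V.Ok F ρ a J) {j m : ℕ} (hj : j + m ≤ K) (p : Nd → Prop) [DecidablePred p] :
    2 ^ (∑ c ∈ range m, J (j + c)) * ((V.fl F.s n j).filter fun f => p (pt F.s n j f.1 f.2)).card ≤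
      ((V.fl F.s n (j + m)).filter fun f => p (nd F.s n (j + m) j f)).card ∧
    ((V.fl F.s n (j + m)).filter fun f => p (nd F.s n (j + m) j f)).card ≤
      2 ^ (∑ c ∈ range m, J (j + c) + m) * ((V.fl F.s n j).filter fun f => p (pt F.s n j f.1 f.2)).card := by
  classical
  have h1 := h.card_fib hj ((V.fl F.s n j).filter fun f => p (pt F.s n j f.1 f.2)) (filter_subset _ _)
  have e : ((V.fl F.s n (j + m)).filter fun f => up n m f ∈ (V.fl F.s n j).filter fun f => p (pt F.s n j f.1 f.2)) =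
      ((V.fl F.s n (j + m)).filter fun f => p (nd F.s n (j + m) j f)) := by
    ext f
    simp only [mem_filter]
    have e1 : nd F.s n (j + m) j f = pt F.s n j (up n m f).1 (up n m f).2 := by
      unfold nd up
      have : j + m - j = m := by omega
      rw [this]
    rw [e1]
    constructor
    · rintro ⟨k1, k2, k3⟩
      exact ⟨k1, k3⟩
    · rintro ⟨k1, k3⟩
      exact ⟨k1, up_mem h hj k1, k3⟩
  rw [e] at h1
  exact h1

/-- every reached node is on a flag of level `K` -/
theorem Ok.exists_nd (h : V.Ok F ρ a J) {j : ℕ} (hj : j ≤ K) {S : Nd} (hS : S ∈ V.D F.s n j) :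
    ∃ f ∈ V.fl F.s n K, nd F.s n K j f = S := by
  classical
  obtain ⟨m, rfl⟩ := Nat.exists_eq_add_of_le hj
  obtain ⟨f, hf, e⟩ := exists_fl h (by omega) hS
  have h1 := (h.card_thr le_rfl (fun v => v = S)).1
  have h2 : 0 < ((V.fl F.s n j).filter fun f => pt F.s n j f.1 f.2 = S).card :=
    card_pos.2 ⟨f, mem_filter.2 ⟨hf, e⟩⟩
  have h3 : 0 < ((V.fl F.s n (j + m)).filter fun f => nd F.s n (j + m) j f = S).card :=
    lt_of_lt_of_le (by positivity) h1
  obtain ⟨g, hg⟩ := card_pos.1 h3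
  rw [mem_filter] at hg
  exact ⟨g, hg.1, hg.2⟩

/-- the number of nodes, from a lower bound for the number of flags through each of them -/
theorem card_le_of_thr {A : Finset (Nd × Z2)} {D : Finset Nd} (g : Nd × Z2 → Nd) (k : ℕ) (hA : 0 < A.card ∨ D = ∅)
    (h : ∀ v ∈ D, A.card ≤ k * (A.filter fun f => g f = v).card) : D.card ≤ k := by
  classical
  rcases hA with hA | rfl
  · have h1 : ∑ v ∈ D, (A.filter fun f => g f = v).card ≤ A.card := by
      rw [← card_biUnion]
      · exact card_le_card (biUnion_subset.2 fun v _ => filter_subset _ _)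
      · intro v _ w _ hvw
        rw [Function.onFun, disjoint_left]
        intro f h1 h2
        exact hvw ((mem_filter.1 h1).2.symm.trans (mem_filter.1 h2).2)
    have h2 : D.card * A.card ≤ k * A.card := by
      calc D.card * A.card = ∑ v ∈ D, A.card := by rw [sum_const, smul_eq_mul]
        _ ≤ ∑ v ∈ D, k * (A.filter fun f => g f = v).card := sum_le_sum fun v hv => h v hv
        _ = k * ∑ v ∈ D, (A.filter fun f => g f = v).card := by rw [mul_sum]
        _ ≤ k * A.card := Nat.mul_le_mul_left _ h1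
    exact Nat.le_of_mul_le_mul_right h2 hA
  · simp

/-- **uniform nodes**: refinement after which every node of level `c` carries `≈ 2 ^ (- H c)` of the flags of `V` -/
theorem Ok.unf (h : V.Ok F ρ a J) (hρ : 0 < ρ) (w : Nd → ℝ) (hw : ∀ x ∈ V.X, 0 ≤ w x) (m : ℕ)
    (hm : (V.fl F.s n K).card ≤ 2 ^ m) :
    ∃ (V' : Val) (J' : ℕ → ℕ) (H : ℕ → ℕ), V'.Le V ∧ V'.Ok F (ρ / (los (m + 1) n K : ℕ) ^ (K + 1)) a J' ∧
      (∀ c, c ≤ K → ∀ v ∈ V'.D F.s n c,
        2 ^ H c * ((V.fl F.s n K).filter fun f => nd F.s n K c f = v).card ≤ (V.fl F.s n K).card ∧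
        (V.fl F.s n K).card < 2 ^ (H c + 1) * ((V.fl F.s n K).filter fun f => nd F.s n K c f = v).card) ∧
      (∀ c, c ≤ K → (V'.D F.s n c).card ≤ 2 ^ (H c + 1)) ∧
      ∑ x ∈ V.X, w x ≤ (los (m + 1) n K : ℕ) ^ (K + 1) * ∑ x ∈ V'.X, w x := by
  classical
  set A := V.fl F.s n K with hA
  set ν : ℕ → Nd → Fin (m + 1) := fun c v =>
    ⟨min (Nat.log 2 (A.card / (A.filter fun f => nd F.s n K c f = v).card)) m, by omega⟩ with hν
  obtain ⟨V', J', u, h1, h2, h3, h4⟩ := tnref V ρ a J h hρ w hw (m + 1) (by omega) ν (K + 1) le_rfl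
  have key : ∀ c, c ≤ K → ∀ v ∈ V'.D F.s n c,
        2 ^ (u c : ℕ) * (A.filter fun f => nd F.s n K c f = v).card ≤ A.card ∧
        A.card < 2 ^ ((u c : ℕ) + 1) * (A.filter fun f => nd F.s n K c f = v).card := by
    intro c hc v hv
    obtain ⟨f, hf, e⟩ := h.exists_nd hc (h1.D c hv)
    set N := (A.filter fun f => nd F.s n K c f = v).card with hN
    have hNpos : 0 < N := card_pos.2 ⟨f, mem_filter.2 ⟨hf, e⟩⟩
    have hNle : N ≤ A.card := card_le_card (filter_subset _ _)
    have hq : A.card / N ≠ 0 := (Nat.div_pos hNle hNpos).ne'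
    have hlog : (u c : ℕ) = Nat.log 2 (A.card / N) := by
      rw [← h3 c (by omega) v hv]
      simp only [hν]
      refine min_eq_left ?_
      calc Nat.log 2 (A.card / N) ≤ Nat.log 2 (2 ^ m) := Nat.log_mono_right ((Nat.div_le_self _ _).trans hm)
        _ = m := Nat.log_pow (by norm_num) _
    rw [hlog]
    constructor
    · have := Nat.pow_log_le_self 2 hq
      calc 2 ^ Nat.log 2 (A.card / N) * N ≤ (A.card / N) * N := Nat.mul_le_mul_right _ this
        _ ≤ A.card := Nat.div_mul_le_self _ _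
    · have := Nat.lt_pow_succ_log_self (b := 2) (by norm_num) (A.card / N)
      rw [Nat.div_lt_iff_lt_mul hNpos] at this
      exact this
  refine ⟨V', J', fun c => (u c : ℕ), h1, h2, key, ?_, h4⟩
  intro c hc
  by_cases hD : V'.D F.s n c = ∅
  · rw [hD]
    simp
  · obtain ⟨v, hv⟩ := nonempty_iff_ne_empty.2 hD
    obtain ⟨f, hf, e⟩ := h.exists_nd hc (h1.D c hv)
    refine card_le_of_thr (A := A) (fun f => nd F.s n K c f) _ (Or.inl (card_pos.2 ⟨f, hf⟩)) fun v hv => ?_
    exact (key c hc v hv).2.le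

end Val

end

end Vale.Agent.P122.C2
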