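import Vale.Agent.P122.C.Flag

/-! # P122 / C : support, number of flags, density of a refinement (helper20) -/

set_option autoImplicit false

namespace Vale.Agent.P122.C2

open Finset

section

variable {C : ℝ} {n K : ℕ} {F : Amp C n K} {V V' : Val} {ρ ρ' : ℝ} {a : ℕ → ℝ} {J J' : ℕ → ℕ}

namespace Val

/-- the next node of a reached node exists -/
theorem Ok.exists_nx (h : V.Ok F ρ a J) {i : ℕ} (hi : i < K) {S : Nd} (hS : S ∈ V.D F.s n i) :
    ∃ τ' ∈ V.G i (S.sg n), nx F.s n i S τ' ∈ V.D F.s n (i + 1) := by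
  have h1 := (h.size i hi S hS).1
  have h2 : 0 < (V.G i (S.sg n)).card := lt_of_lt_of_le (by positivity) h1
  obtain ⟨τ', hτ⟩ := card_pos.1 h2
  exact ⟨τ', hτ, mem_D_succ.2 ⟨S, hS, τ', hτ, rfl⟩⟩

/-- **support of all levels** -/
theorem Ok.supp (h : V.Ok F ρ a J) : ∀ m c, c + m = K → ∀ S ∈ V.D F.s n c,
    0 ≤ S.T ∧ S.T < 2 ^ (2 * m * n) ∧ ∀ k, |(S.o k : ℝ)| ≤ (C + 3 * m) * 2 ^ ((K + m) * n) := by
  intro m
  induction m with
  | zero =>
    intro c hc S hS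
    have hc' : c = K := by omega
    subst hc'
    have h1 := (h.amp c le_rfl S hS).1
    have h2 := h.apos c le_rfl
    obtain ⟨k1, -, k3⟩ := F.supp S (by linarith)
    refine ⟨by rw [k1], by rw [k1]; simp, fun k => ?_⟩
    have := k3 k
    simpa using this
  | succ m ih =>
    intro c hc S hS
    obtain ⟨τ', hτ, hD⟩ := h.exists_nx (show c < K by omega) hS
    obtain ⟨k1, k2, k3⟩ := ih (c + 1) (by omega) _ hD
    have hcap := h.cap (c + 1) (by omega) _ hD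
    have hT : (nx F.s n c S τ').T = S.T / 2 ^ (2 * n) := rfl
    rw [hT] at k1 k2
    have h2n : (0 : ℤ) < 2 ^ (2 * n) := by positivity
    have g1 : 0 ≤ S.T := by
      by_contra hneg
      push Not at hneg
      have := Int.ediv_neg_of_neg_of_pos hneg h2n
      omega
    refine ⟨g1, ?_, fun k => ?_⟩
    · have h3 : S.T / 2 ^ (2 * n) + 1 ≤ 2 ^ (2 * m * n) := k2
      have h4 := Int.lt_ediv_add_one_mul_self S.T h2n
      calc S.T < (S.T / 2 ^ (2 * n) + 1) * 2 ^ (2 * n) := h4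
        _ ≤ 2 ^ (2 * m * n) * 2 ^ (2 * n) := mul_le_mul_of_nonneg_right h3 h2n.le
        _ = 2 ^ (2 * (m + 1) * n) := by rw [← pow_add]; congr 1; ring
    · set σ := S.sg n with hσ
      have ho : (nx F.s n c S τ').o k = ⌊(σ.o k : ℝ) - ((σ.T % 2 ^ (2 * n) : ℤ) : ℝ) * 2 ^ (2 * c * n) *
        F.s (c + 1) τ' k / 2 ^ ((c + 1) * n)⌋ := rfl
      have hs := F.slp.bd (c + 1) τ' k (by omega) hcap
      set r : ℤ := σ.T % 2 ^ (2 * n) with hr
      have hr0 : 0 ≤ r := Int.emod_nonneg _ h2n.ne'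
      have hr1 : r < 2 ^ (2 * n) := Int.emod_lt_of_pos _ h2n
      have hr0' : (0 : ℝ) ≤ r := by exact_mod_cast hr0
      have hr1' : (r : ℝ) ≤ 2 ^ (2 * n) := by exact_mod_cast hr1.le
      set P : ℝ := 2 ^ ((c + 1) * n) with hP
      have hP0 : 0 < P := by positivity
      have hPP : (2 : ℝ) ^ (2 * n) * 2 ^ (2 * c * n) = P * P := by
        rw [hP, ← pow_add, ← pow_add]
        congr 1
        ring
      have hsh : |(r : ℝ) * 2 ^ (2 * c * n) * F.s (c + 1) τ' k / P| ≤ P := by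
        rw [abs_div, abs_mul, abs_mul, abs_of_nonneg hr0', abs_of_pos hP0, abs_of_pos (by positivity : (0:ℝ) < 2 ^ (2 * c * n)),
          div_le_iff₀ hP0, ← hPP]
        calc (r : ℝ) * 2 ^ (2 * c * n) * |F.s (c + 1) τ' k| ≤ r * 2 ^ (2 * c * n) * 1 := by gcongr
          _ ≤ 2 ^ (2 * n) * 2 ^ (2 * c * n) := by rw [mul_one]; gcongr
      have hfl := Int.floor_le ((σ.o k : ℝ) - (r : ℝ) * 2 ^ (2 * c * n) * F.s (c + 1) τ' k / P)
      have hfl' := Int.lt_floor_add_one ((σ.o k : ℝ) - (r : ℝ) * 2 ^ (2 * c * n) * F.s (c + 1) τ' k / P)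
      rw [← ho] at hfl hfl'
      have h5 := k3 k
      have hσo : |(σ.o k : ℝ)| ≤ |(((nx F.s n c S τ').o k : ℤ) : ℝ)| + 1 + P := by
        rw [abs_le] at hsh h5 ⊢
        have a1 := le_abs_self (((nx F.s n c S τ').o k : ℤ) : ℝ)
        have a2 := neg_abs_le (((nx F.s n c S τ').o k : ℤ) : ℝ)
        constructor <;> linarith [hsh.1, hsh.2]
      have hn0 : (0 : ℤ) < 2 ^ n := by positivity
      have hn0' : (0 : ℝ) < 2 ^ n := by positivity
      have hσ1 : σ.o k = S.o k / 2 ^ n := rfl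
      have e1 := Int.emod_add_mul_ediv (S.o k) (2 ^ n)
      have e2 := Int.emod_nonneg (S.o k) hn0.ne'
      have e3 := Int.emod_lt_of_pos (S.o k) hn0
      rw [← hσ1] at e1
      have e1' : ((S.o k % 2 ^ n : ℤ) : ℝ) + 2 ^ n * (σ.o k : ℝ) = (S.o k : ℝ) := by exact_mod_cast e1
      have e2' : (0 : ℝ) ≤ ((S.o k % 2 ^ n : ℤ) : ℝ) := by exact_mod_cast e2
      have e3' : ((S.o k % 2 ^ n : ℤ) : ℝ) ≤ 2 ^ n := by exact_mod_cast e3.le
      have hS0 : |(S.o k : ℝ)| ≤ 2 ^ n * (|(σ.o k : ℝ)| + 1) := by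
        rw [← e1', abs_le]
        have a1 := le_abs_self (σ.o k : ℝ)
        have a2 := neg_abs_le (σ.o k : ℝ)
        constructor <;> nlinarith
      have hmono : P ≤ 2 ^ ((K + m) * n) := by
        rw [hP]
        refine pow_le_pow_right₀ (by norm_num) (Nat.mul_le_mul_right _ (by omega))
      have hone : (1 : ℝ) ≤ 2 ^ ((K + m) * n) := one_le_pow₀ (by norm_num)
      have hpow : (2 : ℝ) ^ ((K + (m + 1)) * n) = 2 ^ n * 2 ^ ((K + m) * n) := by
        rw [← pow_add]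
        congr 1
        ring
      push_cast
      rw [hpow]
      calc |(S.o k : ℝ)| ≤ 2 ^ n * (|(σ.o k : ℝ)| + 1) := hS0
        _ ≤ 2 ^ n * ((C + 3 * (m + 1)) * 2 ^ ((K + m) * n)) := by
            refine mul_le_mul_of_nonneg_left ?_ hn0'.le
            have : (C + 3 * ((m : ℝ) + 1)) * 2 ^ ((K + m) * n) = (C + 3 * m) * 2 ^ ((K + m) * n) + 3 * 2 ^ ((K + m) * n) := by
              ring
            rw [this]
            linarith
        _ = (C + 3 * (m + 1)) * (2 ^ n * 2 ^ ((K + m) * n)) := by ring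

/-- number of starting nodes -/
theorem Ok.card_X_bd (h : V.Ok F ρ a J) (hC : 0 ≤ C) : (V.X.card : ℝ) ≤ (2 * (C + 3 * K) + 1) ^ 2 * 2 ^ (6 * K * n) := by
  classical
  set B : ℝ := (C + 3 * K) * 2 ^ (2 * K * n) with hB
  have hB0 : 0 ≤ B := by positivity
  set M : ℤ := ⌊B⌋ with hM
  have hM0 : 0 ≤ M := Int.floor_nonneg.2 hB0
  set Y : Finset (ℤ × ℤ × ℤ) := Icc (-M) M ×ˢ Icc (-M) M ×ˢ Ico 0 (2 ^ (2 * K * n)) with hY
  have h1 : V.X.card ≤ Y.card := by
    refine card_le_card_of_injOn (fun x => (x.o 0, x.o 1, x.T)) ?_ ?_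
    · intro x hx
      obtain ⟨k1, k2, k3⟩ := h.supp K 0 (by omega) x hx
      have hk : ∀ k, x.o k ∈ Icc (-M) M := by
        intro k
        have h3 : |(x.o k : ℝ)| ≤ B := by
          have := k3 k
          rw [← two_mul] at this
          exact this
        have h4 : ((|x.o k| : ℤ) : ℝ) ≤ B := by
          rw [Int.cast_abs]
          exact h3
        have h5 : |x.o k| ≤ M := Int.le_floor.2 h4
        exact Finset.mem_Icc.2 (abs_le.1 h5)
      exact Finset.mem_coe.2 (Finset.mem_product.2 ⟨hk 0, Finset.mem_product.2 ⟨hk 1, Finset.mem_Ico.2 ⟨k1, k2⟩⟩⟩)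
    · intro x hx y hy hxy
      simp only [Prod.mk.injEq] at hxy
      refine Nd.ext ((h.root x hx).trans (h.root y hy).symm) ?_ hxy.2.2
      funext k
      fin_cases k
      · exact hxy.1
      · exact hxy.2.1
  have h2 : (Y.card : ℝ) = (2 * M + 1) ^ 2 * 2 ^ (2 * K * n) := by
    rw [hY, card_product, card_product, Int.card_Icc, Int.card_Ico]
    have e1 : (((M + 1 - -M).toNat : ℕ) : ℝ) = 2 * M + 1 := by
      have : (((M + 1 - -M).toNat : ℕ) : ℤ) = 2 * M + 1 := by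
        rw [Int.toNat_of_nonneg (by omega)]
        ring
      exact_mod_cast this
    have e2 : ((((2 : ℤ) ^ (2 * K * n) - 0).toNat : ℕ) : ℝ) = 2 ^ (2 * K * n) := by
      have : ((((2 : ℤ) ^ (2 * K * n) - 0).toNat : ℕ) : ℤ) = 2 ^ (2 * K * n) := by
        rw [Int.toNat_of_nonneg (by simp)]
        ring
      exact_mod_cast this
    push_cast
    rw [e1, e2]
    ring
  have h3 : (M : ℝ) ≤ B := Int.floor_le B
  have h4 : (0 : ℝ) ≤ M := by exact_mod_cast hM0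
  have hone : (1 : ℝ) ≤ 2 ^ (2 * K * n) := one_le_pow₀ (by norm_num)
  calc (V.X.card : ℝ) ≤ Y.card := by exact_mod_cast h1
    _ = (2 * M + 1) ^ 2 * 2 ^ (2 * K * n) := h2
    _ ≤ (2 * B + 1) ^ 2 * 2 ^ (2 * K * n) := by gcongr
    _ ≤ ((2 * (C + 3 * K) + 1) * 2 ^ (2 * K * n)) ^ 2 * 2 ^ (2 * K * n) := by
        have : 2 * B + 1 ≤ (2 * (C + 3 * K) + 1) * 2 ^ (2 * K * n) := by
          rw [hB]
          nlinarith
        gcongr
    _ = (2 * (C + 3 * K) + 1) ^ 2 * 2 ^ (6 * K * n) := by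
        rw [mul_pow, ← pow_mul, mul_assoc, ← pow_add]
        congr 2
        ring

/-- number of caps of level `j` -/
theorem card_caps (n j : ℕ) : (Fintype.piFinset fun _ : Fin 2 => Finset.Ico (0 : ℤ) (2 ^ (j * n))).card = 2 ^ (2 * j * n) := by
  rw [Fintype.card_piFinset]
  simp only [Int.card_Ico, Fin.prod_univ_two]
  have : ((2 : ℤ) ^ (j * n) - 0).toNat = 2 ^ (j * n) := by
    have : ((2 : ℤ) ^ (j * n) - 0) = ((2 ^ (j * n) : ℕ) : ℤ) := by push_cast; ring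
    rw [this, Int.toNat_natCast]
  rw [this, ← pow_add]
  congr 1
  ring

/-- number of flags, trivial bound -/
theorem Ok.card_fl_X (h : V.Ok F ρ a J) {j : ℕ} (hj : j ≤ K) : (V.fl F.s n j).card ≤ V.X.card * 2 ^ (2 * j * n) := by
  classical
  rw [← card_caps n j, ← card_product]
  refine card_le_card fun f hf => ?_
  have h1 := h.cap j hj _ (pt_mem_D h hj hf)
  rw [fl_τ hf] at h1
  have h2 := up_mem h (j := 0) (m := j) (by omega) (f := f) (by rw [Nat.zero_add]; exact hf)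
  refine Finset.mem_product.2 ⟨(mem_fl_zero.1 h2).1, ?_⟩
  rw [Fintype.mem_piFinset]
  intro k
  exact Finset.mem_Ico.2 (h1 k)

theorem Ok.card_fl_bd (h : V.Ok F ρ a J) (hC : 0 ≤ C) :
    ((V.fl F.s n K).card : ℝ) ≤ (2 * (C + 3 * K) + 1) ^ 2 * 2 ^ (8 * K * n) := by
  have h1 : ((V.fl F.s n K).card : ℝ) ≤ V.X.card * 2 ^ (2 * K * n) := by exact_mod_cast h.card_fl_X le_rfl
  refine h1.trans ((mul_le_mul_of_nonneg_right (h.card_X_bd hC) (by positivity)).trans (le_of_eq ?_))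
  rw [mul_assoc, ← pow_add]
  congr 2
  ring

/-- the loss for the sum of `a_0 ^ 3` is a loss for the number of starting nodes -/
theorem Ok.card_X_le (h : V.Ok F ρ a J) (hle : V'.Le V) {ℓ : ℝ} (hℓ : 0 ≤ ℓ)
    (hs : ∑ x ∈ V.X, F.a 0 x ^ 3 ≤ ℓ * ∑ x ∈ V'.X, F.a 0 x ^ 3) : (V.X.card : ℝ) ≤ 8 * ℓ * V'.X.card := by
  have h0 := h.apos 0 (Nat.zero_le _)
  have h1 : V.X.card • (a 0) ^ 3 ≤ ∑ x ∈ V.X, F.a 0 x ^ 3 := by
    refine card_nsmul_le_sum _ _ _ fun x hx => ?_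
    exact pow_le_pow_left₀ h0.le (h.amp 0 (Nat.zero_le _) x hx).1 3
  have h2 : ∑ x ∈ V'.X, F.a 0 x ^ 3 ≤ V'.X.card • (2 * a 0) ^ 3 := by
    refine sum_le_card_nsmul _ _ _ fun x hx => ?_
    exact pow_le_pow_left₀ (F.a0 _ _) (h.amp 0 (Nat.zero_le _) x (hle.1 hx)).2.le 3
  rw [nsmul_eq_mul] at h1 h2
  have h3 : (V.X.card : ℝ) * a 0 ^ 3 ≤ (8 * ℓ * V'.X.card) * a 0 ^ 3 := by
    calc (V.X.card : ℝ) * a 0 ^ 3 ≤ ℓ * ∑ x ∈ V'.X, F.a 0 x ^ 3 := h1.trans hs
      _ ≤ ℓ * (V'.X.card * (2 * a 0) ^ 3) := mul_le_mul_of_nonneg_left h2 hℓ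
      _ = (8 * ℓ * V'.X.card) * a 0 ^ 3 := by ring
  exact le_of_mul_le_mul_right h3 (by positivity)

/-- **density**: a refinement which loses little in `X` and in the numbers of children has many flags -/
theorem Ok.card_fl_le (h : V.Ok F ρ a J) (h' : V'.Ok F ρ' a J') {ℓ : ℝ} {m : ℕ}
    (hX : (V.X.card : ℝ) ≤ ℓ * V'.X.card) (hJ : ∑ c ∈ range K, J c ≤ ∑ c ∈ range K, J' c + m) :
    ((V.fl F.s n K).card : ℝ) ≤ 2 ^ (K + m) * ℓ * (V'.fl F.s n K).card := by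
  have h1 : ((V.fl F.s n K).card : ℝ) ≤ 2 ^ (∑ c ∈ range K, J c + K) * V.X.card := by
    exact_mod_cast (h.card_fl le_rfl).2
  have h2 : (2 : ℝ) ^ (∑ c ∈ range K, J' c) * V'.X.card ≤ ((V'.fl F.s n K).card : ℝ) := by
    exact_mod_cast (h'.card_fl le_rfl).1
  rcases Nat.eq_zero_or_pos V'.X.card with h0 | h0
  · have hX0 : (V.X.card : ℝ) ≤ 0 := by
      rw [h0] at hX
      simpa using hX
    have hfl : ((V.fl F.s n K).card : ℝ) ≤ 0 := h1.trans (mul_nonpos_of_nonneg_of_nonpos (by positivity) hX0)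
    have hfl' : (V'.fl F.s n K).card = 0 := by
      have := (h'.card_fl le_rfl).2
      rw [h0, mul_zero] at this
      omega
    rw [hfl']
    simpa using hfl
  have h0' : (0 : ℝ) < V'.X.card := by exact_mod_cast h0
  have hℓ : 0 ≤ ℓ := by
    have : 0 ≤ ℓ * V'.X.card := le_trans (Nat.cast_nonneg _) hX
    by_contra hneg
    push Not at hneg
    nlinarith
  calc ((V.fl F.s n K).card : ℝ) ≤ 2 ^ (∑ c ∈ range K, J c + K) * V.X.card := h1
    _ ≤ 2 ^ (∑ c ∈ range K, J' c + m + K) * V.X.card := by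
        refine mul_le_mul_of_nonneg_right (pow_le_pow_right₀ (by norm_num) (by omega)) (Nat.cast_nonneg _)
    _ ≤ 2 ^ (∑ c ∈ range K, J' c + m + K) * (ℓ * V'.X.card) := mul_le_mul_of_nonneg_left hX (by positivity)
    _ = 2 ^ (K + m) * ℓ * (2 ^ (∑ c ∈ range K, J' c) * V'.X.card) := by
        rw [show ∑ c ∈ range K, J' c + m + K = ∑ c ∈ range K, J' c + (K + m) by ring, pow_add _ (∑ c ∈ range K, J' c)]
        ring
    _ ≤ _ := mul_le_mul_of_nonneg_left h2 (by positivity)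

end Val

end

end Vale.Agent.P122.C2
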