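import Vale.Agent.P122.C.Defs2

/-! # P122 / C : valid structures over the multiscale amplitudes and their refinement (helper20)

* `Val` : starting nodes `X` (level `0`) and child sets `G i σ`, functions of the piece `σ = S.sg n`.
* `V.D n i` : the nodes of level `i` which are reached.
* `V.Ok F ρ a J` : validity with loss `ρ`: all reached nodes of level `i` have amplitude `≈ a i`, `≈ 2 ^ J i` children,
  and the sum of the pieces of the children has amplitude at least `ρ` times the amplitude of the node.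
* `nref` / `eref` : refinement of a valid structure such that a labelling of the nodes (edges) of one level becomes
  constant; `tref` : all levels at once.
-/

set_option autoImplicit false

namespace Vale.Agent.P122.C2

open Finset

/-- starting nodes and child sets -/
structure Val where
  X : Finset Nd
  G : ℕ → Nd → Finset Z2

/-- the child (level `i + 1`) of the node `S` (level `i`) with the cap `τ'` -/
noncomputable def nx (s : ℕ → Z2 → Fin 2 → ℝ) (n i : ℕ) (S : Nd) (τ' : Z2) : Nd := (S.sg n).ch s n i τ'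

theorem nx_τ (s : ℕ → Z2 → Fin 2 → ℝ) (n i : ℕ) (S : Nd) (τ' : Z2) : (nx s n i S τ').τ = τ' := rfl

theorem cap_kids {n i : ℕ} {τ τ' : Z2} (h : Cap n i τ) (h' : τ' ∈ kids n τ) : Cap n (i + 1) τ' := by
  intro k
  unfold kids at h'
  rw [Fintype.mem_piFinset] at h'
  have h1 := Finset.mem_Ico.1 (h' k)
  have h2 := h k
  have hn : (0 : ℤ) < 2 ^ n := by positivity
  refine ⟨le_trans (mul_nonneg hn.le h2.1) h1.1, lt_of_lt_of_le h1.2 ?_⟩
  have h3 : τ k + 1 ≤ 2 ^ (i * n) := h2.2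
  calc (2 : ℤ) ^ n * (τ k + 1) ≤ 2 ^ n * 2 ^ (i * n) := mul_le_mul_of_nonneg_left h3 hn.le
    _ = 2 ^ ((i + 1) * n) := by rw [← pow_add]; congr 1; ring

theorem cap_zero {n : ℕ} {τ : Z2} (h : τ = 0) : Cap n 0 τ := by
  intro k
  subst h
  simp

namespace Val

/-- the nodes of level `i` which are reached -/
noncomputable def D (s : ℕ → Z2 → Fin 2 → ℝ) (n : ℕ) (V : Val) : ℕ → Finset Nd
  | 0 => V.X
  | i + 1 => (D s n V i).biUnion fun S => (V.G i (S.sg n)).image fun τ' => nx s n i S τ'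

/-- refinement -/
def Le (V' V : Val) : Prop := V'.X ⊆ V.X ∧ ∀ i σ, V'.G i σ ⊆ V.G i σ

theorem Le.refl (V : Val) : V.Le V := ⟨Subset.rfl, fun _ _ => Subset.rfl⟩

theorem Le.trans {V V' V'' : Val} (h : V''.Le V') (h' : V'.Le V) : V''.Le V :=
  ⟨h.1.trans h'.1, fun i σ => (h.2 i σ).trans (h'.2 i σ)⟩

variable {s : ℕ → Z2 → Fin 2 → ℝ}

theorem mem_D_zero {n : ℕ} {V : Val} {S : Nd} : S ∈ V.D s n 0 ↔ S ∈ V.X := Iff.rfl

theorem mem_D_succ {n : ℕ} {V : Val} {i : ℕ} {S' : Nd} :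
    S' ∈ V.D s n (i + 1) ↔ ∃ S ∈ V.D s n i, ∃ τ' ∈ V.G i (S.sg n), nx s n i S τ' = S' := by
  simp only [D, mem_biUnion, mem_image]

theorem Le.D {n : ℕ} {V V' : Val} (h : V'.Le V) (i : ℕ) : V'.D s n i ⊆ V.D s n i := by
  induction i with
  | zero => exact h.1
  | succ i ih =>
    intro S' hS'
    rw [mem_D_succ] at hS' ⊢
    obtain ⟨S, hS, τ', hτ, e⟩ := hS'
    exact ⟨S, ih hS, τ', h.2 i _ hτ, e⟩

/-- the levels up to `i` only depend on the child sets of the levels below `i` -/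
theorem D_congr {n : ℕ} {V V' : Val} (i : ℕ) (hX : V'.X = V.X) (h : ∀ j < i, ∀ σ, V'.G j σ = V.G j σ) :
    V'.D s n i = V.D s n i := by
  induction i with
  | zero => exact hX
  | succ i ih =>
    have h1 := ih fun j hj => h j (hj.trans (Nat.lt_succ_self i))
    ext S'
    rw [mem_D_succ, mem_D_succ, h1]
    simp only [h i (Nat.lt_succ_self i)]

variable {C : ℝ} {n K : ℕ}

/-- validity -/
structure Ok (F : Amp C n K) (V : Val) (ρ : ℝ) (a : ℕ → ℝ) (J : ℕ → ℕ) : Prop where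
  root : ∀ x ∈ V.X, x.τ = 0
  apos : ∀ i, i ≤ K → 0 < a i
  kid : ∀ i, i < K → ∀ S ∈ V.D F.s n i, V.G i (S.sg n) ⊆ kids n S.τ
  amp : ∀ i, i ≤ K → ∀ S ∈ V.D F.s n i, a i ≤ F.a i S ∧ F.a i S < 2 * a i
  size : ∀ i, i < K → ∀ S ∈ V.D F.s n i, 2 ^ J i ≤ (V.G i (S.sg n)).card ∧ (V.G i (S.sg n)).card < 2 ^ (J i + 1)
  sum : ∀ i, i < K → ∀ S ∈ V.D F.s n i, ρ * F.a i S ≤ F.A i S (V.G i (S.sg n))

theorem Ok.cap {F : Amp C n K} {V : Val} {ρ : ℝ} {a : ℕ → ℝ} {J : ℕ → ℕ} (h : Ok F V ρ a J) :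
    ∀ i, i ≤ K → ∀ S ∈ V.D F.s n i, Cap n i S.τ := by
  intro i
  induction i with
  | zero => exact fun _ S hS => cap_zero (h.root S hS)
  | succ i ih =>
    intro hi S' hS'
    rw [mem_D_succ] at hS'
    obtain ⟨S, hS, τ', hτ, rfl⟩ := hS'
    exact cap_kids (ih (by omega) S hS) (h.kid i (by omega) S hS hτ)

end Val

/-- restriction of the child sets of level `i` to the edges with the label `u` -/
noncomputable def rstr {q : ℕ} (V : Val) (i : ℕ) (lab : Nd → Z2 → Fin q) (u : Fin q) : Val :=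
  ⟨V.X, fun j σ => if j = i then (V.G j σ).filter fun τ' => lab σ τ' = u else V.G j σ⟩

/-- restriction of the starting nodes -/
def rstX (V : Val) (X : Finset Nd) : Val := ⟨X, V.G⟩

theorem rstr_le {q : ℕ} (V : Val) (i : ℕ) (lab : Nd → Z2 → Fin q) (u : Fin q) : (rstr V i lab u).Le V := by
  refine ⟨Subset.rfl, fun j σ => ?_⟩
  unfold rstr
  by_cases h : j = i
  · simp only [h, if_true]
    exact filter_subset _ _
  · simp only [h, if_false]
    exact Subset.rfl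

theorem card_kids (n : ℕ) (τ : Z2) : (kids n τ).card = 2 ^ (2 * n) := by
  unfold kids
  rw [Fintype.card_piFinset]
  simp only [Int.card_Ico, Fin.prod_univ_two]
  have h : ∀ k, (2 ^ n * (τ k + 1) - 2 ^ n * τ k : ℤ).toNat = 2 ^ n := by
    intro k
    have : (2 ^ n * (τ k + 1) - 2 ^ n * τ k : ℤ) = ((2 ^ n : ℕ) : ℤ) := by push_cast; ring
    rw [this, Int.toNat_natCast]
  rw [h, h, two_mul, pow_add]

section

variable {C : ℝ} {n K : ℕ} (F : Amp C n K)

theorem A_empty {i : ℕ} (hi : i < K) {S : Nd} (hS : Cap n i S.τ) : F.A i S ∅ = 0 := by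
  refine le_antisymm ?_ (F.A0 i S ∅)
  have := F.L1 i S ∅ hi hS (empty_subset _)
  simpa using this

/-- triangle inequality for a partition by labels -/
theorem A_le_sum {i : ℕ} (hi : i < K) {S : Nd} (hS : Cap n i S.τ) (G : Finset Z2) {q : ℕ} (lab : Z2 → Fin q) (U : Finset (Fin q)) :
    F.A i S (G.filter fun τ' => lab τ' ∈ U) ≤ ∑ u ∈ U, F.A i S (G.filter fun τ' => lab τ' = u) := by
  classical
  induction U using Finset.induction_on with
  | empty => simp [A_empty F hi hS]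
  | insert u U hu ih =>
    rw [sum_insert hu]
    have e : (G.filter fun τ' => lab τ' ∈ insert u U) =
        (G.filter fun τ' => lab τ' = u) ∪ (G.filter fun τ' => lab τ' ∈ U) := by
      ext τ
      simp only [mem_filter, mem_insert, mem_union]
      tauto
    rw [e]
    have hd : Disjoint (G.filter fun τ' => lab τ' = u) (G.filter fun τ' => lab τ' ∈ U) := by
      rw [disjoint_left]
      intro τ h1 h2
      rw [mem_filter] at h1 h2
      exact hu (h1.2 ▸ h2.2)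
    exact (F.tri i S _ _ hi hd).trans (by linarith)

theorem exists_label {i : ℕ} (hi : i < K) {S : Nd} (hS : Cap n i S.τ) (G : Finset Z2) {q : ℕ} (hq : 0 < q) (lab : Z2 → Fin q) :
    ∃ u : Fin q, F.A i S G ≤ q * F.A i S (G.filter fun τ' => lab τ' = u) := by
  classical
  have h := A_le_sum F hi hS G lab univ
  have e : (G.filter fun τ' => lab τ' ∈ (univ : Finset (Fin q))) = G := by simp
  rw [e] at h
  have : Nonempty (Fin q) := ⟨⟨0, hq⟩⟩
  obtain ⟨u, -, hu⟩ := exists_max_image (univ : Finset (Fin q)) (fun u => F.A i S (G.filter fun τ' => lab τ' = u))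
    univ_nonempty
  refine ⟨u, h.trans ?_⟩
  have := sum_le_card_nsmul (univ : Finset (Fin q)) (fun u => F.A i S (G.filter fun τ' => lab τ' = u))
    (F.A i S (G.filter fun τ' => lab τ' = u)) fun v hv => hu v hv
  simpa using this

end

/-- number of labels after moving a labelling with `q` labels from the level `i` to the level `0` -/
def los (q n i : ℕ) : ℕ := q * (2 * n + 1) ^ i

theorem los_pos {q n i : ℕ} (hq : 0 < q) : 0 < los q n i := by unfold los; positivity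

theorem los_succ (q n i : ℕ) : los (q * (2 * n + 1)) n i = los q n (i + 1) := by
  unfold los
  rw [pow_succ]
  ring

section

variable {C : ℝ} {n K : ℕ} (F : Amp C n K)

/-- refinement which makes the labelling `ν` of the nodes of level `i` constant -/
def NRef (i : ℕ) : Prop := ∀ (V : Val) (ρ : ℝ) (a : ℕ → ℝ) (J : ℕ → ℕ), V.Ok F ρ a J → 0 < ρ →
  ∀ w : Nd → ℝ, ∀ q : ℕ, 0 < q → ∀ ν : Nd → Fin q, ∃ (V' : Val) (J' : ℕ → ℕ) (u : Fin q),
    V'.Le V ∧ V'.Ok F (ρ / los q n i) a J' ∧ (∀ S ∈ V'.D F.s n i, ν S = u) ∧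
    (∀ j, i ≤ j → V'.G j = V.G j) ∧ (∀ j, i ≤ j → J' j = J j) ∧
    ∑ x ∈ V.X, w x ≤ los q n i * ∑ x ∈ V'.X, w x

theorem nref_zero : NRef F 0 := by
  classical
  intro V ρ a J h hρ w q hq ν
  have : Nonempty (Fin q) := ⟨⟨0, hq⟩⟩
  obtain ⟨u, -, hu⟩ := exists_max_image (univ : Finset (Fin q)) (fun u => ∑ x ∈ V.X.filter fun x => ν x = u, w x)
    univ_nonempty
  have hle : (rstX V (V.X.filter fun x => ν x = u)).Le V := ⟨filter_subset _ _, fun _ _ => Subset.rfl⟩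
  have hl : los q n 0 = q := by simp [los]
  refine ⟨rstX V (V.X.filter fun x => ν x = u), J, u, hle, ⟨fun x hx => h.root x (hle.1 hx), h.apos, ?_, ?_, ?_, ?_⟩, ?_, fun _ _ => rfl,
    fun _ _ => rfl, ?_⟩
  · intro i hi S hS
    exact h.kid i hi S (hle.D i hS)
  · intro i hi S hS
    exact h.amp i hi S (hle.D i hS)
  · intro i hi S hS
    exact h.size i hi S (hle.D i hS)
  · intro i hi S hS
    have h1 := h.sum i hi S (hle.D i hS)
    refine le_trans ?_ h1
    have h2 : ρ / (los q n 0 : ℕ) ≤ ρ := by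
      rw [hl]
      exact div_le_self hρ.le (by exact_mod_cast hq)
    exact mul_le_mul_of_nonneg_right h2 (F.a0 i S)
  · intro S hS
    have : S ∈ V.X.filter fun x => ν x = u := hS
    exact (mem_filter.1 this).2
  · rw [hl]
    have h1 : ∑ x ∈ V.X, w x = ∑ v : Fin q, ∑ x ∈ V.X.filter fun x => ν x = v, w x :=
      (sum_fiberwise V.X ν w).symm
    rw [h1]
    have h2 := sum_le_card_nsmul (univ : Finset (Fin q)) (fun v => ∑ x ∈ V.X.filter fun x => ν x = v, w x)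
      (∑ x ∈ V.X.filter fun x => ν x = u, w x) fun v hv => hu v hv
    refine h2.trans (le_of_eq ?_)
    simp [rstX]

/-- edge refinement at the level `i` from node refinement at the level `i` -/
theorem eref_of_nref {i : ℕ} (hi : i < K) (hN : NRef F i) (V : Val) (ρ : ℝ) (a : ℕ → ℝ) (J : ℕ → ℕ)
    (h : V.Ok F ρ a J) (hρ : 0 < ρ) (w : Nd → ℝ) (q : ℕ) (hq : 0 < q) (lab : Nd → Z2 → Fin q) :
    ∃ (V' : Val) (J' : ℕ → ℕ) (u : Fin q),
      V'.Le V ∧ V'.Ok F (ρ / los q n (i + 1)) a J' ∧ (∀ σ, ∀ τ' ∈ V'.G i σ, lab σ τ' = u) ∧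
      (∀ j, i + 1 ≤ j → V'.G j = V.G j) ∧ (∀ j, i + 1 ≤ j → J' j = J j) ∧
      ∑ x ∈ V.X, w x ≤ los q n (i + 1) * ∑ x ∈ V'.X, w x := by
  classical
  have hex : ∀ S : Nd, ∃ u : Fin q, Cap n i S.τ → F.A i S (V.G i (S.sg n)) ≤
      q * F.A i S ((V.G i (S.sg n)).filter fun τ' => lab (S.sg n) τ' = u) := by
    intro S
    by_cases hS : Cap n i S.τ
    · obtain ⟨u, hu⟩ := exists_label F hi hS (V.G i (S.sg n)) hq (lab (S.sg n))
      exact ⟨u, fun _ => hu⟩
    · exact ⟨⟨0, hq⟩, fun h => absurd h hS⟩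
  choose u hu using hex
  set sz : Nd → Fin (2 * n + 1) := fun S =>
    ⟨min (Nat.log 2 ((V.G i (S.sg n)).filter fun τ' => lab (S.sg n) τ' = u S).card) (2 * n), by omega⟩ with hsz
  obtain ⟨V1, J1, u1, k1, k2, k3, k4, k5, k6⟩ := hN V ρ a J h hρ w (q * (2 * n + 1)) (by positivity)
    fun S => finProdFinEquiv (u S, sz S)
  rw [los_succ] at k2 k6
  obtain ⟨⟨u0, s0⟩, hus⟩ : ∃ p, finProdFinEquiv p = u1 := ⟨finProdFinEquiv.symm u1, Equiv.apply_symm_apply _ _⟩
  have k3' : ∀ S ∈ V1.D F.s n i, u S = u0 ∧ sz S = s0 := by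
    intro S hS
    have := k3 S hS
    rw [← hus] at this
    have := finProdFinEquiv.injective this
    exact ⟨congrArg Prod.fst this, congrArg Prod.snd this⟩
  have hle : (rstr V1 i lab u0).Le V1 := rstr_le V1 i lab u0
  have hD : (rstr V1 i lab u0).D F.s n i = V1.D F.s n i := by
    refine Val.D_congr i rfl fun j hj σ => ?_
    have : ¬ j = i := by omega
    simp only [rstr, this, if_false]
  have hGi : ∀ σ, (rstr V1 i lab u0).G i σ = (V.G i σ).filter fun τ' => lab σ τ' = u0 := by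
    intro σ
    have := k4 i le_rfl
    simp only [rstr, if_true, this]
  have hGj : ∀ j, j ≠ i → (rstr V1 i lab u0).G j = V1.G j := by
    intro j hj
    funext σ
    simp only [rstr, hj, if_false]
  have hloss : ρ / (los q n (i + 1) : ℕ) ≤ ρ / q := by
    have h1 : (q : ℝ) ≤ (los q n (i + 1) : ℕ) := by
      unfold los
      push_cast
      have : (1 : ℝ) ≤ (2 * (n : ℝ) + 1) ^ (i + 1) := one_le_pow₀ (by linarith [(Nat.cast_nonneg n : (0:ℝ) ≤ n)])
      have hq' : (0 : ℝ) ≤ q := Nat.cast_nonneg q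
      nlinarith
    exact div_le_div_of_nonneg_left hρ.le (by exact_mod_cast hq) h1
  have hqR : (0 : ℝ) < q := by exact_mod_cast hq
  -- the child sets of level `i`
  have key : ∀ S ∈ V1.D F.s n i, ρ / q * F.a i S ≤
      F.A i S ((V.G i (S.sg n)).filter fun τ' => lab (S.sg n) τ' = u0) := by
    intro S hS
    have h1 := h.sum i hi S (k1.D i hS)
    have h2 := hu S (h.cap i hi.le S (k1.D i hS))
    rw [(k3' S hS).1] at h2
    rw [div_mul_eq_mul_div, div_le_iff₀ hqR]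
    linarith
  refine ⟨rstr V1 i lab u0, Function.update J1 i s0, u0, hle.trans k1, ⟨k2.root, k2.apos, ?_, ?_, ?_, ?_⟩, ?_, ?_, ?_, ?_⟩
  · intro j hj S hS
    exact (hle.2 j _).trans (k2.kid j hj S (hle.D j hS))
  · intro j hj S hS
    exact k2.amp j hj S (hle.D j hS)
  · intro j hj S hS
    by_cases hji : j = i
    · subst hji
      rw [hD] at hS
      rw [hGi, Function.update_self]
      set G0 := (V.G j (S.sg n)).filter fun τ' => lab (S.sg n) τ' = u0 with hG0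
      have hS' := k1.D j hS
      have hpos : 0 < F.A j S G0 := by
        have h1 := key S hS
        have h2 : 0 < ρ / q * F.a j S := by
          have := (h.amp j hj.le S hS').1
          have := h.apos j hj.le
          have : 0 < F.a j S := by linarith
          positivity
        linarith
      have hne : G0.card ≠ 0 := by
        intro h0
        rw [card_eq_zero] at h0
        rw [h0, A_empty F hj (h.cap j hj.le S hS')] at hpos
        exact lt_irrefl _ hpos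
      have hcard : G0.card ≤ 2 ^ (2 * n) := by
        rw [← card_kids n S.τ]
        exact card_le_card ((filter_subset _ _).trans (h.kid j hj S hS'))
      have hlog : (s0 : ℕ) = Nat.log 2 G0.card := by
        have h1 := congrArg Fin.val (k3' S hS).2
        simp only [hsz, (k3' S hS).1] at h1
        rw [← h1, ← hG0]
        refine min_eq_left ?_
        calc Nat.log 2 G0.card ≤ Nat.log 2 (2 ^ (2 * n)) := Nat.log_mono_right hcard
          _ = 2 * n := Nat.log_pow (by norm_num) _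
      rw [hlog]
      exact ⟨Nat.pow_log_le_self 2 hne, Nat.lt_pow_succ_log_self (by norm_num) _⟩
    · rw [hGj j hji, Function.update_of_ne hji]
      exact k2.size j hj S (hle.D j hS)
  · intro j hj S hS
    by_cases hji : j = i
    · subst hji
      rw [hD] at hS
      rw [hGi]
      exact (mul_le_mul_of_nonneg_right hloss (F.a0 j S)).trans (key S hS)
    · rw [hGj j hji]
      exact k2.sum j hj S (hle.D j hS)
  · intro σ τ' hτ
    rw [hGi, mem_filter] at hτ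
    exact hτ.2
  · intro j hj
    rw [hGj j (by omega), k4 j (by omega)]
  · intro j hj
    rw [Function.update_of_ne (by omega), k5 j (by omega)]
  · exact k6

theorem nref : ∀ i, i ≤ K → NRef F i := by
  intro i
  induction i with
  | zero => exact fun _ => nref_zero F
  | succ i ih =>
    intro hi V ρ a J h hρ w q hq ν
    obtain ⟨V', J', u, h1, h2, h3, h4, h5, h6⟩ := eref_of_nref F (by omega : i < K) (ih (by omega)) V ρ a J h hρ w q hq
      fun σ τ' => ν (σ.ch F.s n i τ')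
    refine ⟨V', J', u, h1, h2, ?_, h4, h5, h6⟩
    intro S' hS'
    rw [Val.mem_D_succ] at hS'
    obtain ⟨S, hS, τ', hτ, rfl⟩ := hS'
    exact h3 _ τ' hτ

/-- **edge refinement** at the level `i` -/
theorem eref {i : ℕ} (hi : i < K) (V : Val) (ρ : ℝ) (a : ℕ → ℝ) (J : ℕ → ℕ)
    (h : V.Ok F ρ a J) (hρ : 0 < ρ) (w : Nd → ℝ) (q : ℕ) (hq : 0 < q) (lab : Nd → Z2 → Fin q) :
    ∃ (V' : Val) (J' : ℕ → ℕ) (u : Fin q),
      V'.Le V ∧ V'.Ok F (ρ / los q n (i + 1)) a J' ∧ (∀ σ, ∀ τ' ∈ V'.G i σ, lab σ τ' = u) ∧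
      (∀ j, i + 1 ≤ j → V'.G j = V.G j) ∧ (∀ j, i + 1 ≤ j → J' j = J j) ∧
      ∑ x ∈ V.X, w x ≤ los q n (i + 1) * ∑ x ∈ V'.X, w x :=
  eref_of_nref F hi (nref F i hi.le) V ρ a J h hρ w q hq lab

/-! ### all levels at once -/

variable {F}

theorem Val.Ok.mono {V : Val} {ρ ρ' : ℝ} {a : ℕ → ℝ} {J : ℕ → ℕ} (h : V.Ok F ρ a J) (h' : ρ' ≤ ρ) :
    V.Ok F ρ' a J :=
  ⟨h.root, h.apos, h.kid, h.amp, h.size, fun i hi S hS =>
    (mul_le_mul_of_nonneg_right h' (F.a0 i S)).trans (h.sum i hi S hS)⟩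

/-- a subset of the starting nodes, smaller child sets which still satisfy the two conditions on child sets -/
theorem Val.Ok.of_le {V V' : Val} {ρ ρ' : ℝ} {a : ℕ → ℝ} {J J' : ℕ → ℕ} (h : V.Ok F ρ a J) (hle : V'.Le V)
    (hs : ∀ i, i < K → ∀ S ∈ V'.D F.s n i,
      2 ^ J' i ≤ (V'.G i (S.sg n)).card ∧ (V'.G i (S.sg n)).card < 2 ^ (J' i + 1))
    (hA : ∀ i, i < K → ∀ S ∈ V'.D F.s n i, ρ' * F.a i S ≤ F.A i S (V'.G i (S.sg n))) : V'.Ok F ρ' a J' :=
  ⟨fun x hx => h.root x (hle.1 hx), h.apos, fun i hi S hS => (hle.2 i _).trans (h.kid i hi S (hle.D i hS)),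
    fun i hi S hS => h.amp i hi S (hle.D i hS), hs, hA⟩

theorem los_mono {q i j : ℕ} (h : i ≤ j) : los q n i ≤ los q n j := by
  unfold los
  exact Nat.mul_le_mul_left q (Nat.pow_le_pow_right (by omega) h)

theorem los_cast_pos {q i : ℕ} (hq : 0 < q) : (0 : ℝ) < (los q n i : ℕ) := by exact_mod_cast los_pos hq

/-- loss of one step, uniform over the levels -/
theorem div_los_le {q i : ℕ} {ρ : ℝ} (hρ : 0 < ρ) (hq : 0 < q) (hi : i ≤ K) :
    ρ / (los q n K : ℕ) ≤ ρ / (los q n i : ℕ) :=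
  div_le_div_of_nonneg_left hρ.le (los_cast_pos hq) (by exact_mod_cast los_mono hi)

/-- **node refinement at all levels** `0, …, m - 1` -/
theorem tnref (V : Val) (ρ : ℝ) (a : ℕ → ℝ) (J : ℕ → ℕ) (h : V.Ok F ρ a J) (hρ : 0 < ρ) (w : Nd → ℝ)
    (hw : ∀ x ∈ V.X, 0 ≤ w x) (q : ℕ) (hq : 0 < q) (ν : ℕ → Nd → Fin q) (m : ℕ) (hm : m ≤ K + 1) :
    ∃ (V' : Val) (J' : ℕ → ℕ) (u : ℕ → Fin q), V'.Le V ∧ V'.Ok F (ρ / (los q n K : ℕ) ^ m) a J' ∧
      (∀ i, i < m → ∀ S ∈ V'.D F.s n i, ν i S = u i) ∧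
      ∑ x ∈ V.X, w x ≤ (los q n K : ℕ) ^ m * ∑ x ∈ V'.X, w x := by
  have hL : (0 : ℝ) < (los q n K : ℕ) := los_cast_pos hq
  induction m with
  | zero =>
    refine ⟨V, J, fun _ => ⟨0, hq⟩, Val.Le.refl V, ?_, fun i hi => absurd hi (Nat.not_lt_zero _), by simp⟩
    simpa using h
  | succ m ih =>
    obtain ⟨V1, J1, u1, h1, h2, h3, h4⟩ := ih (by omega)
    have hρ1 : 0 < ρ / (los q n K : ℕ) ^ m := by positivity
    obtain ⟨V', J', u', k1, k2, k3, -, -, k6⟩ := nref F m (by omega) V1 _ a J1 h2 hρ1 w q hq (ν m)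
    refine ⟨V', J', fun i => if i = m then u' else u1 i, k1.trans h1, ?_, ?_, ?_⟩
    · refine k2.mono ?_
      rw [pow_succ, ← div_div]
      exact div_los_le hρ1 hq (by omega)
    · intro i hi S hS
      by_cases him : i = m
      · subst him
        simp only [if_true]
        exact k3 S hS
      · simp only [him, if_false]
        exact h3 i (by omega) S (k1.D i hS)
    · have hw' : 0 ≤ ∑ x ∈ V'.X, w x := Finset.sum_nonneg fun x hx => hw x (h1.1 (k1.1 hx))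
      have hlm : ((los q n m : ℕ) : ℝ) ≤ (los q n K : ℕ) := by exact_mod_cast los_mono (by omega)
      calc ∑ x ∈ V.X, w x ≤ (los q n K : ℕ) ^ m * ∑ x ∈ V1.X, w x := h4
        _ ≤ (los q n K : ℕ) ^ m * ((los q n m : ℕ) * ∑ x ∈ V'.X, w x) :=
          mul_le_mul_of_nonneg_left k6 (by positivity)
        _ ≤ (los q n K : ℕ) ^ m * ((los q n K : ℕ) * ∑ x ∈ V'.X, w x) :=
          mul_le_mul_of_nonneg_left (mul_le_mul_of_nonneg_right hlm hw') (by positivity)
        _ = (los q n K : ℕ) ^ (m + 1) * ∑ x ∈ V'.X, w x := by ring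

/-- **(T): edge refinement at all levels** `0, …, m - 1` -/
theorem teref (V : Val) (ρ : ℝ) (a : ℕ → ℝ) (J : ℕ → ℕ) (h : V.Ok F ρ a J) (hρ : 0 < ρ) (w : Nd → ℝ)
    (hw : ∀ x ∈ V.X, 0 ≤ w x) (q : ℕ) (hq : 0 < q) (lab : ℕ → Nd → Z2 → Fin q) (m : ℕ) (hm : m ≤ K) :
    ∃ (V' : Val) (J' : ℕ → ℕ) (u : ℕ → Fin q), V'.Le V ∧ V'.Ok F (ρ / (los q n K : ℕ) ^ m) a J' ∧
      (∀ i, i < m → ∀ σ, ∀ τ' ∈ V'.G i σ, lab i σ τ' = u i) ∧
      ∑ x ∈ V.X, w x ≤ (los q n K : ℕ) ^ m * ∑ x ∈ V'.X, w x := by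
  have hL : (0 : ℝ) < (los q n K : ℕ) := los_cast_pos hq
  induction m with
  | zero =>
    refine ⟨V, J, fun _ => ⟨0, hq⟩, Val.Le.refl V, ?_, fun i hi => absurd hi (Nat.not_lt_zero _), by simp⟩
    simpa using h
  | succ m ih =>
    obtain ⟨V1, J1, u1, h1, h2, h3, h4⟩ := ih (by omega)
    have hρ1 : 0 < ρ / (los q n K : ℕ) ^ m := by positivity
    obtain ⟨V', J', u', k1, k2, k3, -, -, k6⟩ := eref F (by omega : m < K) V1 _ a J1 h2 hρ1 w q hq (lab m)
    refine ⟨V', J', fun i => if i = m then u' else u1 i, k1.trans h1, ?_, ?_, ?_⟩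
    · refine k2.mono ?_
      rw [pow_succ, ← div_div]
      exact div_los_le hρ1 hq (by omega)
    · intro i hi σ τ' hτ
      by_cases him : i = m
      · subst him
        simp only [if_true]
        exact k3 σ τ' hτ
      · simp only [him, if_false]
        exact h3 i (by omega) σ τ' (k1.2 i σ hτ)
    · have hw' : 0 ≤ ∑ x ∈ V'.X, w x := Finset.sum_nonneg fun x hx => hw x (h1.1 (k1.1 hx))
      have hlm : ((los q n (m + 1) : ℕ) : ℝ) ≤ (los q n K : ℕ) := by exact_mod_cast los_mono (by omega)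
      calc ∑ x ∈ V.X, w x ≤ (los q n K : ℕ) ^ m * ∑ x ∈ V1.X, w x := h4
        _ ≤ (los q n K : ℕ) ^ m * ((los q n (m + 1) : ℕ) * ∑ x ∈ V'.X, w x) :=
          mul_le_mul_of_nonneg_left k6 (by positivity)
        _ ≤ (los q n K : ℕ) ^ m * ((los q n K : ℕ) * ∑ x ∈ V'.X, w x) :=
          mul_le_mul_of_nonneg_left (mul_le_mul_of_nonneg_right hlm hw') (by positivity)
        _ = (los q n K : ℕ) ^ (m + 1) * ∑ x ∈ V'.X, w x := by ring

/-! ### [L], [B1], [B2] as counts -/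

/-- [L] -/
theorem Val.Ok.L {V : Val} {ρ : ℝ} {a : ℕ → ℝ} {J : ℕ → ℕ} (h : V.Ok F ρ a J) (hρ : 0 < ρ) (hC : 0 ≤ C)
    {i : ℕ} (hi : i < K) {S : Nd} (hS : S ∈ V.D F.s n i) : ρ * a i ≤ 4 * C * 2 ^ J i * a (i + 1) := by
  have h1 := h.sum i hi S hS
  have h2 := F.L1 i S (V.G i (S.sg n)) hi (h.cap i hi.le S hS) (h.kid i hi S hS)
  have h3 : ∑ τ' ∈ V.G i (S.sg n), F.a (i + 1) ((S.sg n).ch F.s n i τ') ≤
      (V.G i (S.sg n)).card • (2 * a (i + 1)) := by
    refine Finset.sum_le_card_nsmul _ _ _ fun τ' hτ => ?_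
    have : nx F.s n i S τ' ∈ V.D F.s n (i + 1) := Val.mem_D_succ.2 ⟨S, hS, τ', hτ, rfl⟩
    exact (h.amp (i + 1) (by omega) _ this).2.le
  have h4 : ((V.G i (S.sg n)).card : ℝ) ≤ 2 ^ (J i + 1) := by exact_mod_cast (h.size i hi S hS).2.le
  have h5 := h.apos (i + 1) (by omega)
  have h6 := (h.amp i hi.le S hS).1
  rw [nsmul_eq_mul] at h3
  calc ρ * a i ≤ ρ * F.a i S := mul_le_mul_of_nonneg_left h6 hρ.le
    _ ≤ C * ((V.G i (S.sg n)).card * (2 * a (i + 1))) := (h1.trans h2).trans (mul_le_mul_of_nonneg_left h3 hC)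
    _ ≤ C * (2 ^ (J i + 1) * (2 * a (i + 1))) := by
        refine mul_le_mul_of_nonneg_left (mul_le_mul_of_nonneg_right h4 (by positivity)) hC
    _ = 4 * C * 2 ^ J i * a (i + 1) := by ring

theorem Val.Ok.sum_sq {V : Val} {ρ : ℝ} {a : ℕ → ℝ} {J : ℕ → ℕ} (h : V.Ok F ρ a J)
    {i : ℕ} (hi : i < K) {S : Nd} (hS : S ∈ V.D F.s n i) :
    ∑ τ' ∈ V.G i (S.sg n), F.a (i + 1) ((S.sg n).ch F.s n i τ') ^ 2 ≤ 8 * 2 ^ J i * a (i + 1) ^ 2 := by
  have h3 : ∑ τ' ∈ V.G i (S.sg n), F.a (i + 1) ((S.sg n).ch F.s n i τ') ^ 2 ≤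
      (V.G i (S.sg n)).card • (2 * a (i + 1)) ^ 2 := by
    refine Finset.sum_le_card_nsmul _ _ _ fun τ' hτ => ?_
    have : nx F.s n i S τ' ∈ V.D F.s n (i + 1) := Val.mem_D_succ.2 ⟨S, hS, τ', hτ, rfl⟩
    exact pow_le_pow_left₀ (F.a0 _ _) (h.amp (i + 1) (by omega) _ this).2.le 2
  have h4 : ((V.G i (S.sg n)).card : ℝ) ≤ 2 ^ (J i + 1) := by exact_mod_cast (h.size i hi S hS).2.le
  rw [nsmul_eq_mul] at h3
  calc _ ≤ _ := h3
    _ ≤ 2 ^ (J i + 1) * (2 * a (i + 1)) ^ 2 := mul_le_mul_of_nonneg_right h4 (by positivity)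
    _ = 8 * 2 ^ J i * a (i + 1) ^ 2 := by ring

/-- [B1] : number of reached nodes with the same piece `σ` -/
theorem Val.Ok.B1 {V : Val} {ρ : ℝ} {a : ℕ → ℝ} {J : ℕ → ℕ} (h : V.Ok F ρ a J) (hρ : 0 < ρ) (hC : 0 ≤ C)
    {i : ℕ} (hi : i < K) (σ : Nd) (U : Finset Nd) (hU : U ⊆ V.D F.s n i) (hσ : ∀ S ∈ U, S.sg n = σ) :
    (U.card : ℝ) * (ρ * a i) ^ 2 ≤ 8 * C * 2 ^ (2 * n + J i) * a (i + 1) ^ 2 := by
  rcases U.eq_empty_or_nonempty with rfl | ⟨S0, hS0⟩
  · simp only [Finset.card_empty, Nat.cast_zero, zero_mul]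
    positivity
  have hS0' := hU hS0
  have e0 := hσ S0 hS0
  have hcap : Cap n i σ.τ := by
    have := h.cap i hi.le S0 hS0'
    rw [← e0]
    exact this
  have hkid : V.G i σ ⊆ kids n σ.τ := by
    have := h.kid i hi S0 hS0'
    rw [e0] at this
    rw [← e0]
    rw [← e0] at this
    exact this
  have h1 := F.B1 i σ (V.G i σ) hi hcap hkid U hσ
  have h2 := h.sum_sq hi hS0'
  rw [e0] at h2
  have h3 : U.card • (ρ * a i) ^ 2 ≤ ∑ S ∈ U, F.A i S (V.G i σ) ^ 2 := by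
    refine Finset.card_nsmul_le_sum _ _ _ fun S hS => ?_
    have k1 := h.sum i hi S (hU hS)
    rw [hσ S hS] at k1
    have k2 := (h.amp i hi.le S (hU hS)).1
    have k3 := h.apos i hi.le
    refine pow_le_pow_left₀ (by positivity) (le_trans ?_ k1) 2
    exact mul_le_mul_of_nonneg_left k2 hρ.le
  rw [nsmul_eq_mul] at h3
  calc _ ≤ _ := h3
    _ ≤ _ := h1
    _ ≤ C * 2 ^ (2 * n) * (8 * 2 ^ J i * a (i + 1) ^ 2) := mul_le_mul_of_nonneg_left h2 (by positivity)
    _ = 8 * C * 2 ^ (2 * n + J i) * a (i + 1) ^ 2 := by rw [pow_add]; ring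

end

end Vale.Agent.P122.C2
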